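import Vale.Agent.P154.Defs

namespace Vale.Agent.P154

variable {q : ℕ}

abbrev V (q : ℕ) := Fin q → ℝ

abbrev Fn (q : ℕ) := (V q → ℝ) → ℝ

/-- normalised messages -/
def Sx (q : ℕ) : Set (V q) := {a | (∀ i, 0 ≤ a i) ∧ ∑ i, a i = q}

noncomputable def av (w : V q) : ℝ := (∑ i, w i) / q

/-- homogeneous extension -/
noncomputable def hat (φ : V q → ℝ) (w : V q) : ℝ := av w * φ ((av w)⁻¹ • w)

def Bd (φ : V q → ℝ) : Prop := ∃ C : ℝ, ∀ a ∈ Sx q, |φ a| ≤ C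

/-- sublinear on the nonnegative orthant -/
def Sub (G : V q → ℝ) : Prop :=
  (∀ x y : V q, 0 ≤ x → 0 ≤ y → G (x + y) ≤ G x + G y) ∧
    ∀ (t : ℝ) (x : V q), 0 ≤ t → 0 ≤ x → G (t • x) = t * G x

structure IsLaw (L : Fn q) : Prop where
  mono : ∀ φ ψ : V q → ℝ, Bd φ → Bd ψ → (∀ a ∈ Sx q, φ a ≤ ψ a) → L φ ≤ L ψ
  add : ∀ φ ψ : V q → ℝ, Bd φ → Bd ψ → L (fun a => φ a + ψ a) = L φ + L ψ
  smul : ∀ (c : ℝ) (φ : V q → ℝ), Bd φ → L (fun a => c * φ a) = c * L φ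
  coord : ∀ i, L (fun a => a i) = 1
  perm : ∀ (σ : Equiv.Perm (Fin q)) (φ : V q → ℝ), Bd φ → L (fun a => φ (a ∘ σ)) = L φ
  jen : ∀ G : V q → ℝ, Sub G → G 1 ≤ L G

noncomputable def star (A B : Fn q) : Fn q := fun φ => A fun a => B fun b => hat φ (a * b)

def unit : Fn q := fun φ => φ 1

noncomputable def Mv (lam : ℝ) (a : V q) : V q := fun i => lam * a i + (1 - lam) * av a

noncomputable def Mop (lam : ℝ) (A : Fn q) : Fn q := fun φ => A fun a => φ (Mv lam a)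

noncomputable def pw (A : Fn q) : ℕ → Fn q
  | 0 => unit
  | k + 1 => star A (pw A k)

noncomputable def mix (p : ℕ → ℝ) (L : ℕ → Fn q) : Fn q := fun φ => ∑' k, p k * L k φ

noncomputable def top : Fn q := fun φ => (∑ i, φ (Pi.single i (q : ℝ))) / q

noncomputable def seq (lam : ℝ) (p : ℕ → ℝ) : ℕ → Fn q
  | 0 => top
  | n + 1 => mix p (pw (Mop lam (seq lam p n)))

/-- convex order -/
def Cx (A B : Fn q) : Prop := ∀ G : V q → ℝ, Sub G → A G ≤ B G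

/-- admissible channel parameter -/
def Adm (q : ℕ) (lam : ℝ) : Prop := -1 ≤ ((q : ℝ) - 1) * lam ∧ lam ≤ 1

/-- probability vector on the naturals -/
def Prob (p : ℕ → ℝ) : Prop := (∀ k, 0 ≤ p k) ∧ HasSum p 1

structure Off (p : ℕ → ℝ) (d ρ : ℝ) : Prop where
  prob : Prob p
  mean : HasSum (fun k : ℕ => p k * k) d
  sq : Summable (fun k : ℕ => p k * (k : ℝ) ^ 2)
  two : p 0 + p 1 < 1
  gen : ∀ z : ℝ, 0 ≤ z → d * z ≤ 1 → Summable (fun k : ℕ => p k * (1 + z) ^ k) ∧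
    ∑' k : ℕ, p k * ((1 + z) ^ k - 1 - k * z) ≤ ρ * (d * z) ^ 2 / 2 + 2 / 9 * (d * z) ^ 3

noncomputable def X2 (a : V q) : ℝ := (∑ i, (a i - 1) ^ 2) / q
noncomputable def X3 (a : V q) : ℝ := (∑ i, (a i - 1) ^ 3) / q
noncomputable def X4 (a : V q) : ℝ := (∑ i, (a i - 1) ^ 4) / q
noncomputable def tv (a : V q) : ℝ := (1 / 2) * ((∑ i, |a i - 1|) / q)

/-- symmetrised product -/
noncomputable def SS (φ : V q → ℝ) (a b : V q) : ℝ :=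
  (∑ σ : Equiv.Perm (Fin q), hat φ (a * (b ∘ σ))) / (q.factorial : ℝ)

def Clos (g : V q → ℝ) : Prop :=
  ∃ u : V q → ℝ, Bd u ∧ (∀ a ∈ Sx q, 0 ≤ u a) ∧
    ∀ a ∈ Sx q, ∀ b ∈ Sx q, u a * g b + g a * u b ≤ SS g a b

def Dlt (g : V q → ℝ) (μ : ℝ) (r : ℕ) : Prop :=
  ∃ v : V q → ℝ, Bd v ∧ (∀ a ∈ Sx q, 0 ≤ v a) ∧
    ∀ a ∈ Sx q, ∀ b ∈ Sx q,
      SS X2 a b ≤ X2 a + X2 b - v a * g b - g a * v b - μ * (X2 a ^ r * X2 b)

noncomputable def g3 (a : V 3) : ℝ := 23 / 100 * X2 a + X3 a - 55 / 100 * X2 a ^ 2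

noncomputable def g4 (a : V 4) : ℝ :=
  2 * X3 a - 140 / 100 * X2 a ^ 2 - 5 / 100 * X4 a + 22 / 100 * (X2 a * X3 a)

/-- the three upper bounds used in the antiferromagnetic endgame -/
def P1 : Prop := ∀ a ∈ Sx 3, ∀ b ∈ Sx 3, SS X2 a b ≤ X2 a + X2 b + 201 / 200 * (X2 a * X2 b)

def P2 : Prop := ∀ a ∈ Sx 3, ∀ b ∈ Sx 3,
  SS X3 a b ≤ X3 a + X3 b + 397 / 100 * (X2 a * X2 b) + 4 * (X2 a ^ 2 * X2 b)

def P3 : Prop := ∀ a ∈ Sx 3, ∀ b ∈ Sx 3,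
  SS (fun c => X2 c ^ 2) a b ≤
    X2 a ^ 2 + X2 b ^ 2 + 502 / 100 * (X2 a * X2 b) + 4 * (X2 a ^ 2 * X2 b)

/-- numerical condition of the endgame: `l` bounds the channel, `s` bounds the limit -/
def EndOK (l s ρ : ℝ) : Prop :=
  let ξ := ρ * (201 / 200) * s / 2 + 2 / 9 * (201 / 200) ^ 2 * s ^ 2
  let e := 1 - l ^ 2 - 4 * l ^ 2 * ξ
  0 < e ∧ 201 / 200 * s ≤ 1 ∧
    l * (ξ * (397 / 100 * e + 4 * l ^ 2 * (502 / 100 * ξ))) +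
      55 / 100 * l ^ 2 * (502 / 100 * ξ) * (1 + l) < 23 / 100 * e * (1 + l)

end Vale.Agent.P154
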